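import Vale.Agent.Lib.P040.Convex

/-!
Zarankiewicz lower bound for straight-line drawings of `K_{m,n}` in general position in which
the red class is in convex position, or more generally has a perfect crossing family.
-/

namespace Vale.Agent.Results.P040.A_convex

open Vale.Agent.P040

theorem result {m n : ℕ} (R : Fin m → ℝ × ℝ) (B : Fin n → ℝ × ℝ)
    (hgp : NoThreeCollinear (Sum.elim R B)) :
    (ConvexIndependent ℝ R → dd m * dd n ≤ crossings R B) ∧
    ((∃ p : Fin (m / 2) × Bool → Fin m, Function.Injective p ∧ ∀ i i', i ≠ i' →
        (segment ℝ (R (p (i, false))) (R (p (i, true))) ∩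
          segment ℝ (R (p (i', false))) (R (p (i', true)))).Nonempty) →
      dd m * dd n ≤ crossings R B) := by
  refine ⟨convex_main R B hgp, ?_⟩
  rintro ⟨p, hp, hcross⟩
  exact family_segments R B hgp rfl p hp hcross

end Vale.Agent.Results.P040.A_convex
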